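import Vale.Agent.Lib.P279.Chain

namespace Vale.Agent.Lib.P279.R11

def st0 : Step := ⟨(-1,-1),(-1,0),[(0,-1,0),(1,0,46313),(1,1,66313),(-1,0,0)],
   [⟨[1],[],[],[],1,0,0,0,0,0,0,0⟩,⟨[],[1],[0,1],[],1,1,0,0,0,0,-1,0⟩,⟨[0,1],[],[],[],1,0,0,0,0,0,0,0⟩,⟨[0,0,1],[],[],[],1,0,0,0,0,0,0,0⟩]⟩

def st1 : Step := ⟨(-1,-1),(-1,0),[(0,-1,0),(2,1,92626),(1,1,66313),(-1,0,0)],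
   [⟨[1],[],[],[],1,0,0,0,0,0,0,0⟩,⟨[],[0,1],[0,0,1],[],1,1,0,0,0,0,0,0⟩,⟨[0,0,1],[],[],[],1,0,0,0,0,0,0,0⟩,⟨[0,0,0,1],[],[],[],1,0,0,0,0,0,0,0⟩]⟩

def st2 : Step := ⟨(-1,-1),(-1,0),[(0,-1,0),(3,2,138939),(1,1,66313),(-1,0,0)],
   [⟨[1],[],[],[],1,0,0,0,0,0,0,0⟩,⟨[],[0,1],[0,0,1],[],1,1,0,0,0,0,1,0⟩,⟨[0,0,1],[],[],[],1,0,0,0,0,0,0,0⟩,⟨[0,0,0,1],[],[],[],1,0,0,0,0,0,0,0⟩]⟩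

def st3 : Step := ⟨(-1,-1),(-1,0),[(0,-1,0),(4,3,185252),(5,4,237878),(-1,0,0)],
   [⟨[1],[],[],[],1,0,0,0,0,0,0,0⟩,⟨[],[0,1],[0,0,1],[],1,1,0,0,0,0,2,0⟩,⟨[],[0,1],[0,1],[0,0,0,1],1,1,1,0,0,0,2,0⟩,⟨[0,0,0,1],[],[],[],1,0,0,0,0,0,0,0⟩]⟩

def st4 : Step := ⟨(-1,-1),(1,0),[(0,-1,0),(4,3,185252),(5,4,237878),(1,4,157878),(-1,0,0)],
   [⟨[1],[],[],[],1,0,0,0,0,0,0,0⟩,⟨[0,1],[],[],[],1,0,0,0,0,0,0,0⟩,⟨[0,0,1],[],[],[],1,0,0,0,0,0,0,0⟩,⟨[],[0,0,0,3],[0,0,0,1],[0,0,1],1,3,1,0,0,0,0,-4⟩,⟨[0,0,0,1],[],[],[],1,0,0,0,0,0,0,0⟩]⟩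

def st5 : Step := ⟨(0,-1),(1,0),[(0,-1,0),(4,3,185252),(5,4,237878),(-3,4,77878),(-1,0,0)],
   [⟨[1],[],[],[],1,0,0,0,0,0,0,0⟩,⟨[0,1],[],[],[],1,0,0,0,0,0,0,0⟩,⟨[0,0,1],[],[],[],1,0,0,0,0,0,0,0⟩,⟨[],[0,0,0,0,3],[0,0,0,0,1],[0,0,0,1],1,3,1,0,0,0,0,-4⟩,⟨[0,0,0,0,1],[],[],[],1,0,0,0,0,0,0,0⟩]⟩

def st6 : Step := ⟨(0,1),(1,0),[(-1,-1,-20000),(0,-1,0),(4,3,185252),(5,4,237878),(-3,4,77878),(-3,1,17878)],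
   [⟨[],[0,0,0,0,1],[1],[],1,1,0,0,0,0,0,0⟩,⟨[1],[],[],[],1,0,0,0,0,0,0,0⟩,⟨[0,1],[],[],[],1,0,0,0,0,0,0,0⟩,⟨[0,0,1],[],[],[],1,0,0,0,0,0,0,0⟩,⟨[0,0,0,1],[],[],[],1,0,0,0,0,0,0,0⟩,⟨[],[0,0,0,1],[3],[],1,3,0,0,0,0,-4,0⟩]⟩

def st7 : Step := ⟨(0,1),(1,0),[(-3,-2,-42122),(-1,-2,-40000),(0,-1,0),(4,3,185252),(5,4,237878),(-3,4,77878)],
   [⟨[],[0,0,0,0,0,1],[0,3],[],1,3,0,0,0,0,-1,0⟩,⟨[],[1],[0,1],[],1,1,0,0,0,0,1,0⟩,⟨[0,1],[],[],[],1,0,0,0,0,0,0,0⟩,⟨[0,0,1],[],[],[],1,0,0,0,0,0,0,0⟩,⟨[0,0,0,1],[],[],[],1,0,0,0,0,0,0,0⟩,⟨[0,0,0,0,1],[],[],[],1,0,0,0,0,0,0,0⟩]⟩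

def st8 : Step := ⟨(0,1),(1,0),[(-3,-5,-102122),(-1,-3,-60000),(-1,-7,-114748),(4,3,185252),(5,4,237878),(-3,4,77878)],
   [⟨[],[1],[0,0,3],[],1,3,0,0,0,0,2,0⟩,⟨[],[0,1],[0,0,1],[],1,1,0,0,0,0,2,0⟩,⟨[],[0,1],[0,4],[0,0,0,1],1,1,4,0,0,0,2,3⟩,⟨[0,0,0,1],[],[],[],1,0,0,0,0,0,0,0⟩,⟨[0,0,0,0,1],[],[],[],1,0,0,0,0,0,0,0⟩,⟨[0,0,0,0,0,1],[],[],[],1,0,0,0,0,0,0,0⟩]⟩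

def st9 : Step := ⟨(-1,0),(0,-1),[(-3,-5,-102122),(-1,-3,-60000),(-1,-7,-114748),(139,12,3058250),(11,2,265199),(-3,4,77878)],
   [⟨[1],[],[],[],1,0,0,0,0,0,0,0⟩,⟨[0,1],[],[],[],1,0,0,0,0,0,0,0⟩,⟨[0,0,1],[],[],[],1,0,0,0,0,0,0,0⟩,⟨[],[0,0,0,0,3],[0,0,0,0,28],[0,0,16],1,12,112,0,0,0,15,16⟩,⟨[],[0,0,0,0,0,1],[0,0,0,7],[0,0,3],2,4,21,0,0,0,-3,3⟩,⟨[0,0,0,0,0,1],[],[],[],1,0,0,0,0,0,0,0⟩]⟩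

def steps : List Step := [st0,st1,st2,st3,st4,st5,st6,st7,st8,st9]

def last : Pt × Pt × Cert := ((0,1),(-1,0),⟨[0,0,0,0,0,6116],[0,0,0,0,1668],[0,0,0,68],[0,9387,65],0,18348,9452,0,0,0,-3336,-28616⟩)

theorem chain_ok : chainOK 20000 last (tri 66313) steps := by decide +kernel

theorem kill (N : ℕ) : Kill (T (66313 * N)) 11 (20000 * N + 1) :=
  kill_T_of_chain chain_ok N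

end Vale.Agent.Lib.P279.R11
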