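import Vale.Agent.Lib.P279.Chain

namespace Vale.Agent.Lib.P279.R12

def st0 : Step := ⟨(-1,-1),(-1,0),[(0,-1,0),(1,0,246283),(1,1,346283),(-1,0,0)],
   [⟨[1],[],[],[],1,0,0,0,0,0,0,0⟩,⟨[],[1],[0,1],[],1,1,0,0,0,0,-1,0⟩,⟨[0,1],[],[],[],1,0,0,0,0,0,0,0⟩,⟨[0,0,1],[],[],[],1,0,0,0,0,0,0,0⟩]⟩

def st1 : Step := ⟨(-1,-1),(-1,0),[(0,-1,0),(2,1,492566),(1,1,346283),(-1,0,0)],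
   [⟨[1],[],[],[],1,0,0,0,0,0,0,0⟩,⟨[],[0,1],[0,0,1],[],1,1,0,0,0,0,0,0⟩,⟨[0,0,1],[],[],[],1,0,0,0,0,0,0,0⟩,⟨[0,0,0,1],[],[],[],1,0,0,0,0,0,0,0⟩]⟩

def st2 : Step := ⟨(-1,-1),(-1,0),[(0,-1,0),(3,2,738849),(1,1,346283),(-1,0,0)],
   [⟨[1],[],[],[],1,0,0,0,0,0,0,0⟩,⟨[],[0,1],[0,0,1],[],1,1,0,0,0,0,1,0⟩,⟨[0,0,1],[],[],[],1,0,0,0,0,0,0,0⟩,⟨[0,0,0,1],[],[],[],1,0,0,0,0,0,0,0⟩]⟩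

def st3 : Step := ⟨(-1,-1),(-1,0),[(0,-1,0),(4,3,985132),(5,4,1277698),(-1,0,0)],
   [⟨[1],[],[],[],1,0,0,0,0,0,0,0⟩,⟨[],[0,1],[0,0,1],[],1,1,0,0,0,0,2,0⟩,⟨[],[0,1],[0,1],[0,0,0,1],1,1,1,0,0,0,2,0⟩,⟨[0,0,0,1],[],[],[],1,0,0,0,0,0,0,0⟩]⟩

def st4 : Step := ⟨(-1,-1),(1,0),[(0,-1,0),(4,3,985132),(5,4,1277698),(1,4,877698),(-1,0,0)],
   [⟨[1],[],[],[],1,0,0,0,0,0,0,0⟩,⟨[0,1],[],[],[],1,0,0,0,0,0,0,0⟩,⟨[0,0,1],[],[],[],1,0,0,0,0,0,0,0⟩,⟨[],[0,0,0,3],[0,0,0,1],[0,0,1],1,3,1,0,0,0,0,-4⟩,⟨[0,0,0,1],[],[],[],1,0,0,0,0,0,0,0⟩]⟩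

def st5 : Step := ⟨(0,-1),(-1,0),[(0,-1,0),(4,3,985132),(12,25,4866188),(15,32,6221584),(-1,0,0)],
   [⟨[1],[],[],[],1,0,0,0,0,0,0,0⟩,⟨[0,1],[],[],[],1,0,0,0,0,0,0,0⟩,⟨[],[0,3],[0,0,0,4],[0,0,0,0,4],1,12,4,0,0,0,9,0⟩,⟨[],[0,0,3],[0,0,0,5],[0,0,0,0,5],1,15,5,0,0,0,12,0⟩,⟨[0,0,0,0,1],[],[],[],1,0,0,0,0,0,0,0⟩]⟩

def st6 : Step := ⟨(-1,0),(0,-1),[(0,-1,0),(16,3,2740528),(112,25,19494488),(12,25,4866188),(15,32,6221584),(-1,0,0)],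
   [⟨[1],[],[],[],1,0,0,0,0,0,0,0⟩,⟨[],[0,1],[0,3],[9],1,3,9,0,0,0,4,0⟩,⟨[],[0,0,1],[0,25],[75],1,25,75,0,0,0,12,0⟩,⟨[0,0,1],[],[],[],1,0,0,0,0,0,0,0⟩,⟨[0,0,0,1],[],[],[],1,0,0,0,0,0,0,0⟩,⟨[0,0,0,0,1],[],[],[],1,0,0,0,0,0,0,0⟩]⟩

def st7 : Step := ⟨(0,-1),(1,0),[(0,-1,0),(16,3,2740528),(112,25,19494488),(12,25,4866188),(-13,25,2366188),(-17,32,3021584),(-1,0,0)],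
   [⟨[1],[],[],[],1,0,0,0,0,0,0,0⟩,⟨[0,1],[],[],[],1,0,0,0,0,0,0,0⟩,⟨[0,0,1],[],[],[],1,0,0,0,0,0,0,0⟩,⟨[0,0,0,1],[],[],[],1,0,0,0,0,0,0,0⟩,⟨[],[0,0,0,0,0,13],[0,0,0,0,0,12],[0,0,0,1],1,13,12,0,0,0,0,-25⟩,⟨[],[0,0,0,0,0,17],[0,0,0,0,0,15],[0,0,0,0,1],1,17,15,0,0,0,0,-32⟩,⟨[0,0,0,0,0,1],[],[],[],1,0,0,0,0,0,0,0⟩]⟩

def st8 : Step := ⟨(0,1),(1,0),[(-1,-1,-100000),(0,-1,0),(16,3,2740528),(112,25,19494488),(12,25,4866188),(-13,25,2366188),(-17,32,3021584),(-17,15,1321584)],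
   [⟨[],[0,0,0,0,0,0,1],[1],[],1,1,0,0,0,0,0,0⟩,⟨[1],[],[],[],1,0,0,0,0,0,0,0⟩,⟨[0,1],[],[],[],1,0,0,0,0,0,0,0⟩,⟨[0,0,1],[],[],[],1,0,0,0,0,0,0,0⟩,⟨[0,0,0,1],[],[],[],1,0,0,0,0,0,0,0⟩,⟨[0,0,0,0,1],[],[],[],1,0,0,0,0,0,0,0⟩,⟨[0,0,0,0,0,1],[],[],[],1,0,0,0,0,0,0,0⟩,⟨[],[0,0,0,0,0,1],[17],[],1,17,0,0,0,0,-32,0⟩]⟩

def st9 : Step := ⟨(1,1),(-1,0),[(-1,-1,-105575),(-1,-2,-200000),(3,-10,140528),(16,3,2740528),(112,25,19494488),(12,25,4866188),(-13,25,2366188),(-17,32,3021584),(-17,15,1321584)],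
   [⟨[],[],[0,32],[15,0,0,0,0,0,0,1],32,0,32,0,0,0,0,0⟩,⟨[],[0,1],[1],[],1,1,0,0,0,0,1,0⟩,⟨[],[0,0,1],[13],[],1,13,0,0,0,0,-3,0⟩,⟨[0,0,1],[],[],[],1,0,0,0,0,0,0,0⟩,⟨[0,0,0,1],[],[],[],1,0,0,0,0,0,0,0⟩,⟨[0,0,0,0,1],[],[],[],1,0,0,0,0,0,0,0⟩,⟨[0,0,0,0,0,1],[],[],[],1,0,0,0,0,0,0,0⟩,⟨[0,0,0,0,0,0,1],[],[],[],1,0,0,0,0,0,0,0⟩,⟨[0,0,0,0,0,0,0,1],[],[],[],1,0,0,0,0,0,0,0⟩]⟩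

def st10 : Step := ⟨(-1,0),(0,-1),[(-1,-1,-105575),(-1,-2,-200000),(1,0,140883),(1441,826,229794271),(1384,1989,344610229),(-13,25,2366188),(-17,32,3021584),(-17,15,1321584)],
   [⟨[1],[],[],[],1,0,0,0,0,0,0,0⟩,⟨[0,1],[],[],[],1,0,0,0,0,0,0,0⟩,⟨[],[],[0,0,0,0,11,189],[0,0,500],5000,0,5000,0,0,0,0,-1500⟩,⟨[],[0,0,0,0,0,4130000],[0,0,0,0,1092593,7],[0,0,2731500],125000,103250000,27315000,0,0,0,49560000,-8194500⟩,⟨[0,0,0,0,0,0,2],[0,0,0,0,0,0,8403523],[0,0,0,15114250],[0,0,4534275],105625,210088075,45342750,0,0,0,-109245799,-13602825⟩,⟨[0,0,0,0,0,0,1],[],[],[],1,0,0,0,0,0,0,0⟩,⟨[0,0,0,0,0,0,0,1],[],[],[],1,0,0,0,0,0,0,0⟩,⟨[0,0,0,0,0,0,0,0,1],[],[],[],1,0,0,0,0,0,0,0⟩]⟩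

def steps : List Step := [st0,st1,st2,st3,st4,st5,st6,st7,st8,st9,st10]

def last : Pt × Pt × Cert := ((0,1),(-1,0),⟨[0,0,0,0,0,341453,189503],[0,0,0,0,5535],[0,0,0,12456],[0,17949096],0,7660440,17949096,0,0,0,-11009115,-35898192⟩)

theorem chain_ok : chainOK 100000 last (tri 346283) steps := by decide +kernel

theorem kill (N : ℕ) : Kill (T (346283 * N)) 12 (100000 * N + 1) :=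
  kill_T_of_chain chain_ok N

end Vale.Agent.Lib.P279.R12
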