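import Vale.Agent.Lib.P279.Chain

namespace Vale.Agent.Lib.P279.R13

def st0 : Step := ⟨(-1,-1),(-1,0),[(0,-1,0),(1,0,260465),(1,1,360465),(-1,0,0)],
   [⟨[1],[],[],[],1,0,0,0,0,0,0,0⟩,⟨[],[1],[0,1],[],1,1,0,0,0,0,-1,0⟩,⟨[0,1],[],[],[],1,0,0,0,0,0,0,0⟩,⟨[0,0,1],[],[],[],1,0,0,0,0,0,0,0⟩]⟩

def st1 : Step := ⟨(-1,-1),(-1,0),[(0,-1,0),(2,1,520930),(1,1,360465),(-1,0,0)],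
   [⟨[1],[],[],[],1,0,0,0,0,0,0,0⟩,⟨[],[0,1],[0,0,1],[],1,1,0,0,0,0,0,0⟩,⟨[0,0,1],[],[],[],1,0,0,0,0,0,0,0⟩,⟨[0,0,0,1],[],[],[],1,0,0,0,0,0,0,0⟩]⟩

def st2 : Step := ⟨(-1,-1),(-1,0),[(0,-1,0),(3,2,781395),(1,1,360465),(-1,0,0)],
   [⟨[1],[],[],[],1,0,0,0,0,0,0,0⟩,⟨[],[0,1],[0,0,1],[],1,1,0,0,0,0,1,0⟩,⟨[0,0,1],[],[],[],1,0,0,0,0,0,0,0⟩,⟨[0,0,0,1],[],[],[],1,0,0,0,0,0,0,0⟩]⟩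

def st3 : Step := ⟨(-1,-1),(-1,0),[(0,-1,0),(4,3,1041860),(5,4,1362790),(-1,0,0)],
   [⟨[1],[],[],[],1,0,0,0,0,0,0,0⟩,⟨[],[0,1],[0,0,1],[],1,1,0,0,0,0,2,0⟩,⟨[],[0,1],[0,1],[0,0,0,1],1,1,1,0,0,0,2,0⟩,⟨[0,0,0,1],[],[],[],1,0,0,0,0,0,0,0⟩]⟩

def st4 : Step := ⟨(-1,-1),(1,0),[(0,-1,0),(4,3,1041860),(1,3,741860),(1,4,962790),(-1,0,0)],
   [⟨[1],[],[],[],1,0,0,0,0,0,0,0⟩,⟨[0,1],[],[],[],1,0,0,0,0,0,0,0⟩,⟨[],[0,0,0,2],[0,0,0,1],[0,1],1,2,1,0,0,0,0,-3⟩,⟨[],[0,0,0,3],[0,0,0,1],[0,0,1],1,3,1,0,0,0,0,-4⟩,⟨[0,0,0,1],[],[],[],1,0,0,0,0,0,0,0⟩]⟩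

def st5 : Step := ⟨(-1,0),(0,1),[(0,-1,0),(4,-1,641860),(4,3,1041860),(1,3,741860),(1,4,962790),(-1,0,0)],
   [⟨[1],[],[],[],1,0,0,0,0,0,0,0⟩,⟨[],[1],[3],[0,1],1,1,3,0,0,0,0,-4⟩,⟨[0,1],[],[],[],1,0,0,0,0,0,0,0⟩,⟨[0,0,1],[],[],[],1,0,0,0,0,0,0,0⟩,⟨[0,0,0,1],[],[],[],1,0,0,0,0,0,0,0⟩,⟨[0,0,0,0,1],[],[],[],1,0,0,0,0,0,0,0⟩]⟩

def st6 : Step := ⟨(-1,1),(1,0),[(0,-1,0),(4,-5,241860),(4,3,1041860),(1,3,741860),(1,4,962790),(-1,0,0)],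
   [⟨[1],[],[],[],1,0,0,0,0,0,0,0⟩,⟨[],[1],[3],[0,1],1,1,3,0,0,0,1,-1⟩,⟨[0,0,1],[],[],[],1,0,0,0,0,0,0,0⟩,⟨[0,0,0,1],[],[],[],1,0,0,0,0,0,0,0⟩,⟨[0,0,0,0,1],[],[],[],1,0,0,0,0,0,0,0⟩,⟨[0,0,0,0,0,1],[],[],[],1,0,0,0,0,0,0,0⟩]⟩

def st7 : Step := ⟨(-1,1),(1,0),[(7,-32,-465120),(32,-57,-465120),(132,-157,5581380),(4,3,1041860),(1,3,741860),(1,4,962790),(-1,0,0)],
   [⟨[],[0,0,0,0,0,25],[0,7],[0,0,1],1,25,7,0,0,0,0,3⟩,⟨[],[25],[0,7],[0,0,1],1,25,7,0,0,0,25,3⟩,⟨[],[0,25],[0,7],[0,0,1],1,25,7,0,0,0,125,3⟩,⟨[0,0,1],[],[],[],1,0,0,0,0,0,0,0⟩,⟨[0,0,0,1],[],[],[],1,0,0,0,0,0,0,0⟩,⟨[0,0,0,0,1],[],[],[],1,0,0,0,0,0,0,0⟩,⟨[0,0,0,0,0,1],[],[],[],1,0,0,0,0,0,0,0⟩]⟩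

def st8 : Step := ⟨(0,-1),(1,0),[(7,-32,-465120),(32,-57,-465120),(132,-157,5581380),(4,3,1041860),(-2,3,441860),(-3,4,562790),(-1,0,0)],
   [⟨[1],[],[],[],1,0,0,0,0,0,0,0⟩,⟨[0,1],[],[],[],1,0,0,0,0,0,0,0⟩,⟨[0,0,1],[],[],[],1,0,0,0,0,0,0,0⟩,⟨[0,0,0,1],[],[],[],1,0,0,0,0,0,0,0⟩,⟨[],[0,0,0,0,0,0,2],[0,0,0,0,0,0,1],[0,0,0,0,1],1,2,1,0,0,0,0,-3⟩,⟨[],[0,0,0,0,0,0,3],[0,0,0,0,0,0,1],[0,0,0,0,0,1],1,3,1,0,0,0,0,-4⟩,⟨[0,0,0,0,0,0,1],[],[],[],1,0,0,0,0,0,0,0⟩]⟩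

def st9 : Step := ⟨(0,1),(-1,0),[(457,-1856,-119341451),(49,-170,-10011728),(49,-121,-5111725),(100,-53,11386020),(4,3,1041860),(-2,3,441860),(-3,4,562790),(-1,0,0)],
   [⟨[0,0,0,0,0,0,7],[0,46400],[0,59392],[0,0,0,0,0,0,1900544],3249,1484800,1900544,0,0,0,2644800,0⟩,⟨[],[0,0,30625],[1,161699],[0,0,0,0,0,0,5174375],82500,4042500,5174375,0,0,0,4808125,0⟩,⟨[],[0,0,9503,1],[50176],[0,0,0,0,0,0,351232],25600,1254400,351232,0,0,0,1491968,0⟩,⟨[],[0,0,0,25],[4],[0,0,0,0,0,0,28],1,100,28,0,0,0,-75,0⟩,⟨[0,0,0,1],[],[],[],1,0,0,0,0,0,0,0⟩,⟨[0,0,0,0,1],[],[],[],1,0,0,0,0,0,0,0⟩,⟨[0,0,0,0,0,1],[],[],[],1,0,0,0,0,0,0,0⟩,⟨[0,0,0,0,0,0,1],[],[],[],1,0,0,0,0,0,0,0⟩]⟩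

def st10 : Step := ⟨(1,-1),(1,0),[(457,-1856,-119341451),(49,-170,-10011728),(49,-121,-5111725),(100,-53,11386020),(4,3,1041860),(-5,3,141860),(-7,4,162790),(-1358,9,-41874957)],
   [⟨[1],[],[],[],1,0,0,0,0,0,0,0⟩,⟨[0,1],[],[],[],1,0,0,0,0,0,0,0⟩,⟨[0,0,1],[],[],[],1,0,0,0,0,0,0,0⟩,⟨[0,0,0,1],[],[],[],1,0,0,0,0,0,0,0⟩,⟨[0,0,0,0,1],[],[],[],1,0,0,0,0,0,0,0⟩,⟨[],[0,0,0,0,0,0,0,2],[0,0,0,0,0,0,0,1],[0,0,0,0,0,1],1,2,1,0,0,0,0,-3⟩,⟨[],[0,0,0,0,0,0,0,3],[0,0,0,0,0,0,0,1],[0,0,0,0,0,0,1],1,3,1,0,0,0,0,-4⟩,⟨[],[5369,0,0,0,0,0,0,1],[0,0,0,0,0,0,0,2503744],[0,0,0,0,0,0,2503744],5568,7511232,2503744,0,0,0,-9964864,-10014976⟩]⟩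

def st11 : Step := ⟨(0,1),(-1,0),[(268,-1339,-121245625),(433,-1644,-144034610),(624,-1159,-71424050),(601,-347,19318102),(4,3,1041860),(-5,3,141860),(-7,4,162790)],
   [⟨[],[0,24864504],[7,13100567],[0,0,0,0,0,0,91704426],4546122,1218360696,641930982,0,0,0,4226965680,366817704⟩,⟨[],[0,336132,40221346061],[1411821614],[0,0,0,0,0,0,0,475112281],4551645329,1970862427457,645202477598,0,0,0,4866840015821,4276010529⟩,⟨[],[0,0,137612,112414235737],[8052766176],[0,0,0,0,0,0,0,2709951504],18015112687,11241430316688,3680114142432,0,0,0,5957971145113,24389563536⟩,⟨[],[0,0,0,1899,145834593037],[417872896],[0,0,0,0,0,0,0,140624384],970613248,583338562048,190967913472,0,0,0,-437503678464,1265619456⟩,⟨[0,0,0,0,1],[],[],[],1,0,0,0,0,0,0,0⟩,⟨[0,0,0,0,0,1],[],[],[],1,0,0,0,0,0,0,0⟩,⟨[0,0,0,0,0,0,1],[],[],[],1,0,0,0,0,0,0,0⟩]⟩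

def steps : List Step := [st0,st1,st2,st3,st4,st5,st6,st7,st8,st9,st10,st11]

def last : Pt × Pt × Cert := ((1,0),(0,1),⟨[0,0,0,0,285234],[0,0,0,2466],[0,1075],[0,0,0,0,0,17192,428931],0,855702,1767300,0,0,0,-1482066,-3088477⟩)

theorem chain_ok : chainOK 100000 last (tri 360465) steps := by decide +kernel

theorem kill (N : ℕ) : Kill (T (360465 * N)) 13 (100000 * N + 1) :=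
  kill_T_of_chain chain_ok N

end Vale.Agent.Lib.P279.R13
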