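import Vale.Agent.Lib.P279.Chain

namespace Vale.Agent.Lib.P279.R14

def st0 : Step := ⟨(-1,-1),(-1,0),[(0,-1,0),(1,0,273964),(1,1,373964),(-1,0,0)],
   [⟨[1],[],[],[],1,0,0,0,0,0,0,0⟩,⟨[],[1],[0,1],[],1,1,0,0,0,0,-1,0⟩,⟨[0,1],[],[],[],1,0,0,0,0,0,0,0⟩,⟨[0,0,1],[],[],[],1,0,0,0,0,0,0,0⟩]⟩

def st1 : Step := ⟨(-1,-1),(-1,0),[(0,-1,0),(2,1,547928),(1,1,373964),(-1,0,0)],
   [⟨[1],[],[],[],1,0,0,0,0,0,0,0⟩,⟨[],[0,1],[0,0,1],[],1,1,0,0,0,0,0,0⟩,⟨[0,0,1],[],[],[],1,0,0,0,0,0,0,0⟩,⟨[0,0,0,1],[],[],[],1,0,0,0,0,0,0,0⟩]⟩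

def st2 : Step := ⟨(-1,-1),(-1,0),[(0,-1,0),(3,2,821892),(1,1,373964),(-1,0,0)],
   [⟨[1],[],[],[],1,0,0,0,0,0,0,0⟩,⟨[],[0,1],[0,0,1],[],1,1,0,0,0,0,1,0⟩,⟨[0,0,1],[],[],[],1,0,0,0,0,0,0,0⟩,⟨[0,0,0,1],[],[],[],1,0,0,0,0,0,0,0⟩]⟩

def st3 : Step := ⟨(-1,-1),(-1,0),[(0,-1,0),(4,3,1095856),(5,4,1443784),(-1,0,0)],
   [⟨[1],[],[],[],1,0,0,0,0,0,0,0⟩,⟨[],[0,1],[0,0,1],[],1,1,0,0,0,0,2,0⟩,⟨[],[0,1],[0,1],[0,0,0,1],1,1,1,0,0,0,2,0⟩,⟨[0,0,0,1],[],[],[],1,0,0,0,0,0,0,0⟩]⟩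

def st4 : Step := ⟨(-1,-1),(-1,0),[(0,-1,0),(4,1,1043784),(16,13,4331352),(11,9,2987568),(-1,0,0)],
   [⟨[1],[],[],[],1,0,0,0,0,0,0,0⟩,⟨[],[3],[0,0,1],[0,0,0,1],1,3,1,0,0,0,-3,0⟩,⟨[],[0,3],[0,0,1],[0,0,0,1],1,3,1,0,0,0,9,0⟩,⟨[],[0,2],[0,1],[0,0,0,1],1,2,1,0,0,0,6,0⟩,⟨[0,0,0,1],[],[],[],1,0,0,0,0,0,0,0⟩]⟩

def st5 : Step := ⟨(-1,-1),(-1,0),[(0,-1,0),(9,2,2087568),(55,34,13569192),(139,118,36582168),(95,81,25088112),(-1,0,0)],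
   [⟨[1],[],[],[],1,0,0,0,0,0,0,0⟩,⟨[],[7],[0,0,0,1],[0,0,0,0,2],1,7,2,0,0,0,-7,0⟩,⟨[],[0,7],[0,0,0,3],[0,0,0,0,6],1,21,6,0,0,0,7,0⟩,⟨[],[0,0,7],[0,0,0,3],[0,0,0,0,6],1,21,6,0,0,0,91,0⟩,⟨[],[0,0,0,7],[0,0,0,2],[0,0,0,0,4],1,14,4,0,0,0,63,0⟩,⟨[0,0,0,0,1],[],[],[],1,0,0,0,0,0,0,0⟩]⟩

def st6 : Step := ⟨(-1,-1),(1,0),[(0,-1,0),(9,2,2087568),(55,34,13569192),(139,118,36582168),(21,118,24782168),(14,81,16988112),(-1,0,0)],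
   [⟨[1],[],[],[],1,0,0,0,0,0,0,0⟩,⟨[0,1],[],[],[],1,0,0,0,0,0,0,0⟩,⟨[0,0,1],[],[],[],1,0,0,0,0,0,0,0⟩,⟨[0,0,0,1],[],[],[],1,0,0,0,0,0,0,0⟩,⟨[],[0,0,0,0,0,97],[0,0,0,0,0,21],[0,0,0,1],1,97,21,0,0,0,0,-118⟩,⟨[],[0,0,0,0,0,67],[0,0,0,0,0,14],[0,0,0,0,1],1,67,14,0,0,0,0,-81⟩,⟨[0,0,0,0,0,1],[],[],[],1,0,0,0,0,0,0,0⟩]⟩

def st7 : Step := ⟨(-1,0),(0,1),[(0,-1,0),(9,-7,1187568),(55,-21,8069192),(139,-21,22682168),(139,118,36582168),(21,118,24782168),(14,81,16988112),(-1,0,0)],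
   [⟨[1],[],[],[],1,0,0,0,0,0,0,0⟩,⟨[],[7],[2],[0,1],1,7,2,0,0,0,0,-9⟩,⟨[],[21],[34],[0,0,1],1,21,34,0,0,0,0,-55⟩,⟨[],[21],[118],[0,0,0,1],1,21,118,0,0,0,0,-139⟩,⟨[0,0,0,1],[],[],[],1,0,0,0,0,0,0,0⟩,⟨[0,0,0,0,1],[],[],[],1,0,0,0,0,0,0,0⟩,⟨[0,0,0,0,0,1],[],[],[],1,0,0,0,0,0,0,0⟩,⟨[0,0,0,0,0,0,1],[],[],[],1,0,0,0,0,0,0,0⟩]⟩

def st8 : Step := ⟨(0,-1),(-1,0),[(0,-1,0),(9,-7,1187568),(55,-21,8069192),(139,-21,22682168),(139,118,36582168),(311,640,123106154),(107,221,42481010),(-1,0,0)],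
   [⟨[1],[],[],[],1,0,0,0,0,0,0,0⟩,⟨[0,1],[],[],[],1,0,0,0,0,0,0,0⟩,⟨[0,0,1],[],[],[],1,0,0,0,0,0,0,0⟩,⟨[0,0,0,1],[],[],[],1,0,0,0,0,0,0,0⟩,⟨[0,0,0,0,1],[],[],[],1,0,0,0,0,0,0,0⟩,⟨[],[0,0,0,0,15239],[0,0,0,0,0,5,31608],[0,0,0,0,0,0,0,442617],6811,2118221,442617,0,0,0,1798202,0⟩,⟨[],[0,0,0,0,1039691,7],[0,0,0,0,0,1489868],[0,0,0,0,0,0,0,31287228],1350628,144517196,31287228,0,0,0,122684364,0⟩,⟨[0,0,0,0,0,0,0,1],[],[],[],1,0,0,0,0,0,0,0⟩]⟩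

def st9 : Step := ⟨(-1,0),(0,1),[(0,-1,0),(1575,-1373,123305142),(1272,-937,105379050),(1183,-802,101384944),(1281,-464,137375370),(351,-98,40100742),(311,640,123106154),(107,221,42481010),(-1,0,0)],
   [⟨[1],[],[],[],1,0,0,0,0,0,0,0⟩,⟨[],[1565136247],[0,0,0,10965150,4],[0,0,0,0,1951421],1139939,1565136247,230267678,0,0,0,0,-271247519⟩,⟨[],[195038424],[0,0,3320519,1],[0,0,0,0,590940],208152,195038424,69730920,0,0,0,0,-82140660⟩,⟨[],[293398868],[0,0,6637274],[0,0,0,0,3,217785],365834,293398868,139382754,0,0,0,0,-67731552⟩,⟨[],[107,16877587],[0,0,2672640],[0,0,0,0,0,87696],254619,118143216,56125440,0,0,0,151898283,-27273456⟩,⟨[],[0,1756160],[0,2275837,1],[0,0,0,0,0,24892],125440,12293120,15930880,0,0,0,15805440,-7741412⟩,⟨[0,0,0,0,0,1],[],[],[],1,0,0,0,0,0,0,0⟩,⟨[0,0,0,0,0,0,1],[],[],[],1,0,0,0,0,0,0,0⟩,⟨[0,0,0,0,0,0,0,1],[],[],[],1,0,0,0,0,0,0,0⟩]⟩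

def st10 : Step := ⟨(-1,1),(1,0),[(202,-1575,-34194858),(1037,-1941,-22514307),(767,-1332,-13157784),(1183,-1985,-16915056),(1281,-1745,9275370),(351,-449,5000742),(351,-98,40100742),(311,640,123106154),(107,221,42481010),(-1,0,0)],
   [⟨[],[0,0,0,0,0,0,0,0,1373],[202],[0,1],1,1373,202,0,0,0,0,-1373⟩,⟨[],[244695624],[36000573],[0,178219,1],270681,244695624,36000573,0,0,0,244695624,-244695624⟩,⟨[],[152934765],[54677562],[0,1,163216],270681,152934765,54677562,0,0,0,152934765,-152934765⟩,⟨[],[802],[381],[0,0,0,1],1,802,381,0,0,0,802,-802⟩,⟨[],[464],[817],[0,0,0,0,1],1,464,817,0,0,0,464,-464⟩,⟨[],[98],[253],[0,0,0,0,0,1],1,98,253,0,0,0,98,-98⟩,⟨[0,0,0,0,0,1],[],[],[],1,0,0,0,0,0,0,0⟩,⟨[0,0,0,0,0,0,1],[],[],[],1,0,0,0,0,0,0,0⟩,⟨[0,0,0,0,0,0,0,1],[],[],[],1,0,0,0,0,0,0,0⟩,⟨[0,0,0,0,0,0,0,0,1],[],[],[],1,0,0,0,0,0,0,0⟩]⟩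

def st11 : Step := ⟨(0,1),(-1,0),[(338,-1297,-88338496),(501,-1822,-122641482),(509,-1744,-114713566),(509,-726,-12913569),(437,398,111969125),(311,640,123106154),(107,221,42481010),(-1,0,0)],
   [⟨[],[0,0,0,0,18002218],[0,0,436,28753859],[0,0,0,0,0,0,0,0,0,34016149609],68227341,23060841258,34016149609,0,0,0,31413870410,0⟩,⟨[],[0,0,0,0,71,10033629],[0,0,6233442],[0,0,0,0,0,0,0,0,0,4781050014],7029730,3521894730,4781050014,0,0,0,4505223316,0⟩,⟨[],[0,0,0,0,0,631767237],[7,245298994],[0,0,0,0,0,0,0,0,0,254375058192],435658743,221750300187,254375058192,0,0,0,283663489413,0⟩,⟨[],[0,0,0,0,0,187,245298620],[62709309],[0,0,0,0,0,0,0,0,0,12667280418],169154973,86099881257,12667280418,0,0,0,24039348723,0⟩,⟨[0,0,0,0,0,0,0,79],[0,0,0,0,0,0,0,214053446],[48485522],[0,0,0,0,0,0,0,0,0,9794075444],152335575,66570621706,9794075444,0,0,0,-136994205440,0⟩,⟨[0,0,0,0,0,0,0,1],[],[],[],1,0,0,0,0,0,0,0⟩,⟨[0,0,0,0,0,0,0,0,1],[],[],[],1,0,0,0,0,0,0,0⟩,⟨[0,0,0,0,0,0,0,0,0,1],[],[],[],1,0,0,0,0,0,0,0⟩]⟩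

def st12 : Step := ⟨(-1,-1),(1,0),[(338,-1297,-88338496),(501,-1822,-122641482),(1629,1897,334389463),(1417,1914,321814500),(982,1333,223879274),(113,1373,229406794),(-1,0,0)],
   [⟨[1],[],[],[],1,0,0,0,0,0,0,0⟩,⟨[0,1],[],[],[],1,0,0,0,0,0,0,0⟩,⟨[],[0,0,0,0,0,0,0,5276961808],[0,0,0,0,0,0,281361966],[0,0,14236643,87],19690156,5276961808,32075264124,0,0,0,0,24828768554⟩,⟨[],[0,0,0,0,0,0,0,29358022596],[0,0,0,0,0,0,734235554],[0,0,247,67775139],59070468,29358022596,83702853156,0,0,0,0,49205181682⟩,⟨[],[0,0,0,0,0,0,0,108804735],[0,0,0,0,0,925148,277],[0,0,0,246482],309985,108804735,304405270,0,0,0,0,178945932⟩,⟨[],[0,0,0,0,0,0,0,7661024280],[0,0,0,0,37,2088333],[0,0,0,0,17616926],6080178,7661024280,687060114,0,0,0,0,-7011536548⟩,⟨[0,0,0,0,0,0,0,1],[],[],[],1,0,0,0,0,0,0,0⟩]⟩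

def steps : List Step := [st0,st1,st2,st3,st4,st5,st6,st7,st8,st9,st10,st11,st12]

def last : Pt × Pt × Cert := ((0,1),(-1,0),⟨[0,0,0,0,0,0,8931167],[0,0,0,4693,2323],[9313],[0,0,0,0,0,0,3147794],0,8931167,3147794,0,0,0,-12078961,0⟩)

theorem chain_ok : chainOK 100000 last (tri 373964) steps := by decide +kernel

theorem kill (N : ℕ) : Kill (T (373964 * N)) 14 (100000 * N + 1) :=
  kill_T_of_chain chain_ok N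

end Vale.Agent.Lib.P279.R14
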