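import Vale.Agent.Lib.P279.Chain

namespace Vale.Agent.Lib.P279.R16

def st0 : Step := ⟨(-1,-1),(-1,0),[(0,-1,0),(1,0,299919),(1,1,399919),(-1,0,0)],
   [⟨[1],[],[],[],1,0,0,0,0,0,0,0⟩,⟨[],[1],[0,1],[],1,1,0,0,0,0,-1,0⟩,⟨[0,1],[],[],[],1,0,0,0,0,0,0,0⟩,⟨[0,0,1],[],[],[],1,0,0,0,0,0,0,0⟩]⟩

def st1 : Step := ⟨(-1,-1),(-1,0),[(0,-1,0),(2,1,599838),(1,1,399919),(-1,0,0)],
   [⟨[1],[],[],[],1,0,0,0,0,0,0,0⟩,⟨[],[0,1],[0,0,1],[],1,1,0,0,0,0,0,0⟩,⟨[0,0,1],[],[],[],1,0,0,0,0,0,0,0⟩,⟨[0,0,0,1],[],[],[],1,0,0,0,0,0,0,0⟩]⟩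

def st2 : Step := ⟨(-1,-1),(-1,0),[(0,-1,0),(3,2,899757),(1,1,399919),(-1,0,0)],
   [⟨[1],[],[],[],1,0,0,0,0,0,0,0⟩,⟨[],[0,1],[0,0,1],[],1,1,0,0,0,0,1,0⟩,⟨[0,0,1],[],[],[],1,0,0,0,0,0,0,0⟩,⟨[0,0,0,1],[],[],[],1,0,0,0,0,0,0,0⟩]⟩

def st3 : Step := ⟨(-1,-1),(-1,0),[(0,-1,0),(4,3,1199676),(-1,0,0)],
   [⟨[1],[],[],[],1,0,0,0,0,0,0,0⟩,⟨[],[0,1],[0,0,1],[],1,1,0,0,0,0,2,0⟩,⟨[0,0,0,1],[],[],[],1,0,0,0,0,0,0,0⟩]⟩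

def st4 : Step := ⟨(-1,-1),(-1,0),[(0,-1,0),(11,9,3299028),(-1,0,0)],
   [⟨[1],[],[],[],1,0,0,0,0,0,0,0⟩,⟨[],[0,2],[0,1],[0,0,1],1,2,1,0,0,0,6,0⟩,⟨[0,0,1],[],[],[],1,0,0,0,0,0,0,0⟩]⟩

def st5 : Step := ⟨(-1,-1),(-1,0),[(0,-1,0),(9,2,2399028),(95,81,27891252),(-1,0,0)],
   [⟨[1],[],[],[],1,0,0,0,0,0,0,0⟩,⟨[],[7],[0,1],[0,0,2],1,7,2,0,0,0,-7,0⟩,⟨[],[0,7],[0,2],[0,0,4],1,14,4,0,0,0,63,0⟩,⟨[0,0,1],[],[],[],1,0,0,0,0,0,0,0⟩]⟩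

def st6 : Step := ⟨(-1,-1),(-1,0),[(0,-1,0),(81,14,19791252),(1170,701,299273640),(1503,1315,430074030),(-1,0,0)],
   [⟨[1],[],[],[],1,0,0,0,0,0,0,0⟩,⟨[],[67],[0,0,1],[0,0,0,14],1,67,14,0,0,0,-67,0⟩,⟨[],[0,67],[0,0,7],[0,0,0,98],1,469,98,0,0,0,134,0⟩,⟨[0,0,0,2],[0,0,88105],[0,0,18410],[0,0,0,257740],6561,1233470,257740,0,0,0,7136505,0⟩,⟨[0,0,0,1],[],[],[],1,0,0,0,0,0,0,0⟩]⟩

def st7 : Step := ⟨(-1,-1),(-1,0),[(0,-1,0),(1315,188,298574030),(1157,670,272875860),(941,684,232080459),(1475,1314,410961284),(-1,0,0)],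
   [⟨[1],[],[],[],1,0,0,0,0,0,0,0⟩,⟨[],[1127],[0,0,0,1],[0,0,0,0,188],1,1127,188,0,0,0,-1127,0⟩,⟨[],[0,36772876,1],[0,0,0,2186143],[0,0,0,0,410994884],5059103,2463783161,410994884,0,0,0,514820965,0⟩,⟨[],[0,742,24950225],[0,0,0,10383057],[0,0,0,0,1952014716],45531927,11701705239,1952014716,0,0,0,17490118113,0⟩,⟨[],[0,0,1,2907100],[0,0,0,484947],[0,0,0,0,91170036],3394629,546535269,91170036,0,0,0,3822837201,0⟩,⟨[0,0,0,0,1],[],[],[],1,0,0,0,0,0,0,0⟩]⟩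

def st8 : Step := ⟨(-1,-1),(1,0),[(0,-1,0),(1315,188,298574030),(1157,670,272875860),(941,684,232080459),(1475,1314,410961284),(161,1314,279561284),(-1,0,0)],
   [⟨[1],[],[],[],1,0,0,0,0,0,0,0⟩,⟨[0,1],[],[],[],1,0,0,0,0,0,0,0⟩,⟨[0,0,1],[],[],[],1,0,0,0,0,0,0,0⟩,⟨[0,0,0,1],[],[],[],1,0,0,0,0,0,0,0⟩,⟨[0,0,0,0,1],[],[],[],1,0,0,0,0,0,0,0⟩,⟨[],[0,0,0,0,0,1153],[0,0,0,0,0,161],[0,0,0,0,1],1,1153,161,0,0,0,0,-1314⟩,⟨[0,0,0,0,0,1],[],[],[],1,0,0,0,0,0,0,0⟩]⟩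

def st9 : Step := ⟨(-1,0),(0,1),[(0,-1,0),(1315,-1127,167074030),(1157,-487,157175860),(941,-257,137980459),(941,684,232080459),(1475,1314,410961284),(161,1314,279561284),(-1,0,0)],
   [⟨[1],[],[],[],1,0,0,0,0,0,0,0⟩,⟨[],[1127],[188],[0,1],1,1127,188,0,0,0,0,-1315⟩,⟨[],[487],[670],[0,0,1],1,487,670,0,0,0,0,-1157⟩,⟨[],[257],[684],[0,0,0,1],1,257,684,0,0,0,0,-941⟩,⟨[0,0,0,1],[],[],[],1,0,0,0,0,0,0,0⟩,⟨[0,0,0,0,1],[],[],[],1,0,0,0,0,0,0,0⟩,⟨[0,0,0,0,0,1],[],[],[],1,0,0,0,0,0,0,0⟩,⟨[0,0,0,0,0,0,1],[],[],[],1,0,0,0,0,0,0,0⟩]⟩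

def st10 : Step := ⟨(0,-1),(-1,0),[(0,-1,0),(1315,-1127,167074030),(1157,-487,157175860),(941,-257,137980459),(941,684,232080459),(929,1734,348498213),(853,1732,347271659),(-1,0,0)],
   [⟨[1],[],[],[],1,0,0,0,0,0,0,0⟩,⟨[0,1],[],[],[],1,0,0,0,0,0,0,0⟩,⟨[0,0,1],[],[],[],1,0,0,0,0,0,0,0⟩,⟨[0,0,0,1],[],[],[],1,0,0,0,0,0,0,0⟩,⟨[0,0,0,0,1],[],[],[],1,0,0,0,0,0,0,0⟩,⟨[],[0,0,0,0,918599,4],[0,0,0,0,0,0,749703],[0,0,0,0,0,0,0,120702183],930471,864407559,120702183,0,0,0,628326972,0⟩,⟨[],[0,0,0,0,1838,75870379],[0,0,0,0,0,0,97060311],[0,0,0,0,0,0,0,15626710071],131196411,111910538583,15626710071,0,0,0,99694935198,0⟩,⟨[0,0,0,0,0,0,0,1],[],[],[],1,0,0,0,0,0,0,0⟩]⟩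

def st11 : Step := ⟨(0,1),(1,0),[(-1,-1,-100000),(0,-1,0),(1315,-1127,167074030),(1157,-487,157175860),(941,-257,137980459),(941,684,232080459),(929,1734,348498213),(853,1732,347271659),(-1,0,0)],
   [⟨[],[0,0,0,0,0,0,0,1],[1],[],1,1,0,0,0,0,0,0⟩,⟨[1],[],[],[],1,0,0,0,0,0,0,0⟩,⟨[0,1],[],[],[],1,0,0,0,0,0,0,0⟩,⟨[0,0,1],[],[],[],1,0,0,0,0,0,0,0⟩,⟨[0,0,0,1],[],[],[],1,0,0,0,0,0,0,0⟩,⟨[0,0,0,0,1],[],[],[],1,0,0,0,0,0,0,0⟩,⟨[0,0,0,0,0,1],[],[],[],1,0,0,0,0,0,0,0⟩,⟨[0,0,0,0,0,0,1],[],[],[],1,0,0,0,0,0,0,0⟩,⟨[0,0,0,0,0,0,0,1],[],[],[],1,0,0,0,0,0,0,0⟩]⟩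

def st12 : Step := ⟨(1,0),(0,1),[(-2,-1,-200000),(0,-1,0),(1315,-1127,167074030),(1157,-487,157175860),(941,-257,137980459),(941,684,232080459),(929,1734,348498213),(853,1732,347271659)],
   [⟨[],[1],[0,0,0,0,0,0,0,0,1],[],1,1,0,0,0,0,1,0⟩,⟨[0,1],[],[],[],1,0,0,0,0,0,0,0⟩,⟨[0,0,1],[],[],[],1,0,0,0,0,0,0,0⟩,⟨[0,0,0,1],[],[],[],1,0,0,0,0,0,0,0⟩,⟨[0,0,0,0,1],[],[],[],1,0,0,0,0,0,0,0⟩,⟨[0,0,0,0,0,1],[],[],[],1,0,0,0,0,0,0,0⟩,⟨[0,0,0,0,0,0,1],[],[],[],1,0,0,0,0,0,0,0⟩,⟨[0,0,0,0,0,0,0,1],[],[],[],1,0,0,0,0,0,0,0⟩]⟩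

def st13 : Step := ⟨(1,1),(1,0),[(-4,-3,-600000),(-31,-25,-4810632),(1315,-1127,167074030),(1157,-487,157175860),(941,-257,137980459),(941,684,232080459),(929,1734,348498213),(853,1732,347271659)],
   [⟨[],[1],[1],[0,1],1,1,1,0,0,0,1,-1⟩,⟨[],[7890],[17095],[0,1,7],1315,7890,17095,0,0,0,7890,-7890⟩,⟨[0,0,1],[],[],[],1,0,0,0,0,0,0,0⟩,⟨[0,0,0,1],[],[],[],1,0,0,0,0,0,0,0⟩,⟨[0,0,0,0,1],[],[],[],1,0,0,0,0,0,0,0⟩,⟨[0,0,0,0,0,1],[],[],[],1,0,0,0,0,0,0,0⟩,⟨[0,0,0,0,0,0,1],[],[],[],1,0,0,0,0,0,0,0⟩,⟨[0,0,0,0,0,0,0,1],[],[],[],1,0,0,0,0,0,0,0⟩]⟩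

def st14 : Step := ⟨(0,1),(-1,0),[(-4,-3,-600000),(41,-1785,-177343053),(145,-1862,-176559679),(362,-1691,-136914768),(79,-279,-19727723),(359,-230,29444247),(929,1734,348498213),(853,1732,347271659)],
   [⟨[1],[],[],[],1,0,0,0,0,0,0,0⟩,⟨[],[0,0,0,0,0,270067],[0,0,0,0,11684036],[2748646157,3008],6198367,254133047,10994677876,0,0,0,-184725828,-8246013671⟩,⟨[],[0,0,0,0,0,361663205],[0,0,0,3789,4545474560],[0,137977288543],2347069489,340325075905,4277295944833,0,0,0,-247377632220,-3449432213575⟩,⟨[],[0,0,0,0,0,3125455729,10079],[0,0,0,11180007276],[0,417266723172],8124483990,2941063204380,12935268418332,0,0,0,-2137829195622,-10431668079300⟩,⟨[],[0,0,0,0,0,1611,230294111],[0,0,0,813278614],[0,30353656658],2708161330,213944745070,940963356398,0,0,0,-399331090398,-758841416450⟩,⟨[],[0,0,0,0,0,0,119104353],[0,0,126819451,70],[0,5379601905],308211543,110647943937,166767659055,0,0,0,-206526948102,-134490047625⟩,⟨[0,0,0,0,0,0,1],[],[],[],1,0,0,0,0,0,0,0⟩,⟨[0,0,0,0,0,0,0,1],[],[],[],1,0,0,0,0,0,0,0⟩]⟩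

def steps : List Step := [st0,st1,st2,st3,st4,st5,st6,st7,st8,st9,st10,st11,st12,st13,st14]

def last : Pt × Pt × Cert := ((1,1),(-1,0),⟨[0,0,0,0,0,0,177197267],[0,0,0,60890379,49262156],[0,26235755],[47906488630],0,142643799935,47906488630,0,0,0,116709772413,-143719465890⟩)

theorem chain_ok : chainOK 100000 last (tri 399919) steps := by decide +kernel

theorem kill (N : ℕ) : Kill (T (399919 * N)) 16 (100000 * N + 1) :=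
  kill_T_of_chain chain_ok N

end Vale.Agent.Lib.P279.R16
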